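import Vale.Agent.Lib.P110.Rate

open Vale.Agent.Lib.P110

namespace Vale.Agent.Results.P110.RateObstruction

/-- For every real Littlewood polynomial `P(z) = ∑_{k<N} ε_k z^k`, `ε_k = ±1`, of length `N ≥ 2`
there is a point `z` of the unit circle with `| |P(z)|^2 - N | ≥ √(N-1)` and
`| |P(z)|/√N - 1 | ≥ 3/(10 √N)`. -/
theorem result (N : ℕ) (hN : 2 ≤ N) (ε : Fin N → ℤ) (hε : ∀ k, ε k = 1 ∨ ε k = -1) :
    ∃ z : ℂ, ‖z‖ = 1 ∧
      √((N : ℝ) - 1) ≤ |‖∑ k : Fin N, (ε k : ℂ) * z ^ (k : ℕ)‖ ^ 2 - N| ∧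
      3 / (10 * √(N : ℝ)) ≤ |‖∑ k : Fin N, (ε k : ℂ) * z ^ (k : ℕ)‖ / √(N : ℝ) - 1| := by
  obtain ⟨z, hz, hlarge⟩ := exists_large ε hε
  rw [eval_Sc ε z hz] at hlarge
  set p := ‖∑ k : Fin N, (ε k : ℂ) * z ^ (k : ℕ)‖ with hp
  have hp0 : 0 ≤ p := norm_nonneg _
  have hN2 : (2 : ℝ) ≤ N := by exact_mod_cast hN
  have h1 : √((N : ℝ) - 1) ≤ |p ^ 2 - N| := by
    rw [← Real.sqrt_sq (abs_nonneg (p ^ 2 - N))]
    exact Real.sqrt_le_sqrt hlarge
  refine ⟨z, hz, h1, ?_⟩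
  set s := √(N : ℝ) with hs
  have hs2 : s ^ 2 = N := Real.sq_sqrt (by linarith)
  have hs1 : 1 ≤ s := by
    rw [hs]; exact Real.one_le_sqrt.2 (by linarith)
  have hspos : 0 < s := by linarith
  -- lower bound for the square root
  have h2 : 7 / 10 * s ≤ √((N : ℝ) - 1) := by
    apply Real.le_sqrt_of_sq_le
    nlinarith
  by_contra hcon
  push Not at hcon
  set u := p / s with hu
  have hu0 : 0 ≤ u := div_nonneg hp0 hspos.le
  have hpu : p = u * s := by rw [hu]; field_simp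
  set η := |u - 1| with hη
  have hη0 : 0 ≤ η := abs_nonneg _
  have h3 : |p ^ 2 - N| = s ^ 2 * (η * |u + 1|) := by
    rw [hpu, ← hs2, hη, ← abs_mul]
    have : (u * s) ^ 2 - s ^ 2 = s ^ 2 * ((u - 1) * (u + 1)) := by ring
    rw [this, abs_mul, abs_of_nonneg (sq_nonneg s)]
  have h4 : |u + 1| ≤ 2 + η := by
    rw [abs_of_nonneg (by linarith)]
    have := le_abs_self (u - 1)
    linarith
  have h5 : η * s < 3 / 10 := by
    have : η < 3 / (10 * s) := hcon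
    rw [lt_div_iff₀ (by positivity)] at this
    linarith
  have h6 : s ^ 2 * (η * |u + 1|) ≤ s ^ 2 * (η * (2 + η)) := by
    apply mul_le_mul_of_nonneg_left _ (sq_nonneg s)
    exact mul_le_mul_of_nonneg_left h4 hη0
  have h7 : s ^ 2 * (η * (2 + η)) = 2 * s * (η * s) + (η * s) ^ 2 := by ring
  have h8 : 0 ≤ η * s := by positivity
  have h9 : (η * s) ^ 2 < 9 / 100 := by nlinarith
  have h10 : 2 * s * (η * s) ≤ 2 * s * (3 / 10) :=
    mul_le_mul_of_nonneg_left h5.le (by positivity)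
  have : 7 / 10 * s < 7 / 10 * s := by
    calc 7 / 10 * s ≤ |p ^ 2 - N| := h2.trans h1
      _ ≤ 2 * s * (η * s) + (η * s) ^ 2 := by rw [h3, ← h7]; exact h6
      _ < 2 * s * (3 / 10) + 9 / 100 := by linarith
      _ ≤ 7 / 10 * s := by linarith
  exact lt_irrefl _ this

end Vale.Agent.Results.P110.RateObstruction
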